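import Vale.Agent.P032.H800.Br.T0
import Vale.Agent.P032.H800.Br.T1
import Vale.Agent.P032.H800.Br.T2
import Vale.Agent.P032.H800.Br.T3
import Vale.Agent.P032.H800.Br.T4
import Vale.Agent.P032.H800.Br.T5
import Vale.Agent.P032.H800.Br.T6
import Vale.Agent.P032.H800.Br.T7
import Vale.Agent.P032.H800.Br.T8
import Vale.Agent.P032.H800.Br.T9
import Vale.Agent.P032.H800.Br.T10
import Vale.Agent.P032.H800.Br.T11
import Vale.Agent.P032.H623.BrOf

/-!
# P032: the steps from the 57 columns

`hS800` : every step from a column of `L57` which is not `NsC` ends in a column of the list `lst c`.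
-/

namespace Vale.Agent.P032.H800.Br

open Vale.Agent.P032.Six Vale.Agent.P032.H429 Vale.Agent.P032.H158 Vale.Agent.P032.H728
open Vale.Agent.P032.H623 Vale.Agent.P032.H437.Wt

/-- the ends of the steps from `c` are in `lst c` -/
def EndIn (c : ℕ) : Prop := ∀ s s', StepC All Et s s' → IsCol s.1 c → ¬ NsC s.1 s'.1 →
  ∃ q ∈ lst c, IsCol s'.1 q

theorem toLst {c : ℕ} {L : List (List ℕ)} {l : List ℕ} (hk : chkC c L = true)
    (hr : (c, l) ∈ rows) (hl : l = L.flatten) : EndIn c := by
  intro s s' h hc hn
  obtain ⟨m, hm, q, hq, hq'⟩ := chkC_sound hk h hc hn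
  refine ⟨q, mem_lst.2 ⟨l, hr, ?_⟩, hq'⟩
  rw [hl]
  exact List.mem_flatten.2 ⟨m, hm, hq⟩

theorem e0 : EndIn 12301231032 :=
  toLst k0 (List.mem_append_left _ List.mem_cons_self) (by simp [q0])

theorem e1 : EndIn 12301241032 :=
  toLst k1 (List.mem_append_right _ (List.mem_append_left _ List.mem_cons_self)) (by simp [q1])

theorem e2 : EndIn 12301241042 :=
  toLst k2 (List.mem_append_right _ (List.mem_append_right _ (List.mem_append_left _
    List.mem_cons_self))) (by simp [q2])

theorem e3 : EndIn 12301243042 :=
  toLst k3 (List.mem_append_right _ (List.mem_append_right _ (List.mem_append_right _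
    (List.mem_append_left _ List.mem_cons_self)))) (by simp [q3])

theorem e4 : EndIn 12301321024 :=
  toLst k4 (List.mem_append_right _ (List.mem_append_right _ (List.mem_append_right _
    (List.mem_append_right _ (List.mem_append_left _ List.mem_cons_self))))) (by simp [q4])

theorem e5 : EndIn 12301321032 :=
  toLst k5 (List.mem_append_right _ (List.mem_append_right _ (List.mem_append_right _
    (List.mem_append_right _ (List.mem_append_right _ (List.mem_append_left _
    List.mem_cons_self)))))) (by simp [q5])

theorem e6 : EndIn 12301321034 :=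
  toLst k6 (List.mem_append_right _ (List.mem_append_right _ (List.mem_append_right _
    (List.mem_append_right _ (List.mem_append_right _ (List.mem_append_right _
    (List.mem_append_left _ List.mem_cons_self))))))) (by simp [q6])

theorem e7 : EndIn 12301321042 :=
  toLst k7 (List.mem_append_right _ (List.mem_append_right _ (List.mem_append_right _
    (List.mem_append_right _ (List.mem_append_right _ (List.mem_append_right _
    (List.mem_append_right _ List.mem_cons_self))))))) (by simp [q7])

theorem e8 : EndIn 12301321043 :=
  toLst k8 (List.mem_append_left _ (List.mem_cons_of_mem _ List.mem_cons_self)) (by simp [q8])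

theorem e9 : EndIn 12301321045 :=
  toLst k9 (List.mem_append_right _ (List.mem_append_left _ (List.mem_cons_of_mem _
    List.mem_cons_self))) (by simp [q9])

theorem e10 : EndIn 12301341032 :=
  toLst k10 (List.mem_append_right _ (List.mem_append_right _ (List.mem_append_left _
    (List.mem_cons_of_mem _ List.mem_cons_self)))) (by simp [q10])

theorem e11 : EndIn 12301341043 :=
  toLst k11 (List.mem_append_right _ (List.mem_append_right _ (List.mem_append_right _
    (List.mem_append_left _ (List.mem_cons_of_mem _ List.mem_cons_self))))) (by simp [q11])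

theorem e12 : EndIn 12301341243 :=
  toLst k12 (List.mem_append_right _ (List.mem_append_right _ (List.mem_append_right _
    (List.mem_append_right _ (List.mem_append_left _ (List.mem_cons_of_mem _
    List.mem_cons_self)))))) (by simp [q12])

theorem e13 : EndIn 12301421024 :=
  toLst k13 (List.mem_append_right _ (List.mem_append_right _ (List.mem_append_right _
    (List.mem_append_right _ (List.mem_append_right _ (List.mem_append_left _
    (List.mem_cons_of_mem _ List.mem_cons_self))))))) (by simp [q13])

theorem e14 : EndIn 12301421032 :=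
  toLst k14 (List.mem_append_right _ (List.mem_append_right _ (List.mem_append_right _
    (List.mem_append_right _ (List.mem_append_right _ (List.mem_append_right _
    (List.mem_append_left _ (List.mem_cons_of_mem _ List.mem_cons_self)))))))) (by simp [q14])

theorem e15 : EndIn 12301423024 :=
  toLst k15 (List.mem_append_right _ (List.mem_append_right _ (List.mem_append_right _
    (List.mem_append_right _ (List.mem_append_right _ (List.mem_append_right _
    (List.mem_append_right _ (List.mem_cons_of_mem _ List.mem_cons_self)))))))) (by simp [q15])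

theorem e16 : EndIn 12301431032 :=
  toLst k16 (List.mem_append_left _ (List.mem_cons_of_mem _ (List.mem_cons_of_mem _
    List.mem_cons_self))) (by simp [q16])

theorem e17 : EndIn 12301431034 :=
  toLst k17 (List.mem_append_right _ (List.mem_append_left _ (List.mem_cons_of_mem _
    (List.mem_cons_of_mem _ List.mem_cons_self)))) (by simp [q17])

theorem e18 : EndIn 12301431234 :=
  toLst k18 (List.mem_append_right _ (List.mem_append_right _ (List.mem_append_left _
    (List.mem_cons_of_mem _ (List.mem_cons_of_mem _ List.mem_cons_self))))) (by simp [q18])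

theorem e19 : EndIn 12301451032 :=
  toLst k19 (List.mem_append_right _ (List.mem_append_right _ (List.mem_append_right _
    (List.mem_append_left _ (List.mem_cons_of_mem _ (List.mem_cons_of_mem _
    List.mem_cons_self)))))) (by simp [q19])

theorem e20 : EndIn 12301451054 :=
  toLst k20 (List.mem_append_right _ (List.mem_append_right _ (List.mem_append_right _
    (List.mem_append_right _ (List.mem_append_left _ (List.mem_cons_of_mem _
    (List.mem_cons_of_mem _ List.mem_cons_self))))))) (by simp [q20])

theorem e21 : EndIn 12301451254 :=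
  toLst k21 (List.mem_append_right _ (List.mem_append_right _ (List.mem_append_right _
    (List.mem_append_right _ (List.mem_append_right _ (List.mem_append_left _
    (List.mem_cons_of_mem _ (List.mem_cons_of_mem _ List.mem_cons_self)))))))) (by simp [q21])

theorem e22 : EndIn 12301453054 :=
  toLst k22 (List.mem_append_right _ (List.mem_append_right _ (List.mem_append_right _
    (List.mem_append_right _ (List.mem_append_right _ (List.mem_append_right _
    (List.mem_append_left _ (List.mem_cons_of_mem _ (List.mem_cons_of_mem _
    List.mem_cons_self))))))))) (by simp [q22])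

theorem e23 : EndIn 12301453254 :=
  toLst k23 (List.mem_append_right _ (List.mem_append_right _ (List.mem_append_right _
    (List.mem_append_right _ (List.mem_append_right _ (List.mem_append_right _
    (List.mem_append_right _ (List.mem_cons_of_mem _ (List.mem_cons_of_mem _
    List.mem_cons_self))))))))) (by simp [q23])

theorem e24 : EndIn 12304123042 :=
  toLst k24 (List.mem_append_left _ (List.mem_cons_of_mem _ (List.mem_cons_of_mem _
    (List.mem_cons_of_mem _ List.mem_cons_self)))) (by simp [q24])

theorem e25 : EndIn 12304123045 :=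
  toLst k25 (List.mem_append_right _ (List.mem_append_left _ (List.mem_cons_of_mem _
    (List.mem_cons_of_mem _ (List.mem_cons_of_mem _ List.mem_cons_self))))) (by simp [q25])

theorem e26 : EndIn 12304123542 :=
  toLst k26 (List.mem_append_right _ (List.mem_append_right _ (List.mem_append_left _
    (List.mem_cons_of_mem _ (List.mem_cons_of_mem _ (List.mem_cons_of_mem _
    List.mem_cons_self)))))) (by simp [q26])

theorem e27 : EndIn 12304124032 :=
  toLst k27 (List.mem_append_right _ (List.mem_append_right _ (List.mem_append_right _
    (List.mem_append_left _ (List.mem_cons_of_mem _ (List.mem_cons_of_mem _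
    (List.mem_cons_of_mem _ List.mem_cons_self))))))) (by simp [q27])

theorem e28 : EndIn 12304134032 :=
  toLst k28 (List.mem_append_right _ (List.mem_append_right _ (List.mem_append_right _
    (List.mem_append_right _ (List.mem_append_left _ (List.mem_cons_of_mem _
    (List.mem_cons_of_mem _ (List.mem_cons_of_mem _ List.mem_cons_self)))))))) (by simp [q28])

theorem e29 : EndIn 12304153042 :=
  toLst k29 (List.mem_append_right _ (List.mem_append_right _ (List.mem_append_right _
    (List.mem_append_right _ (List.mem_append_right _ (List.mem_append_left _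
    (List.mem_cons_of_mem _ (List.mem_cons_of_mem _ (List.mem_cons_of_mem _
    List.mem_cons_self))))))))) (by simp [q29])

theorem e30 : EndIn 12304153045 :=
  toLst k30 (List.mem_append_right _ (List.mem_append_right _ (List.mem_append_right _
    (List.mem_append_right _ (List.mem_append_right _ (List.mem_append_right _
    (List.mem_append_left _ (List.mem_cons_of_mem _ (List.mem_cons_of_mem _
    (List.mem_cons_of_mem _ List.mem_cons_self)))))))))) (by simp [q30])

theorem e31 : EndIn 12304153245 :=
  toLst k31 (List.mem_append_right _ (List.mem_append_right _ (List.mem_append_right _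
    (List.mem_append_right _ (List.mem_append_right _ (List.mem_append_right _
    (List.mem_append_right _ (List.mem_cons_of_mem _ (List.mem_cons_of_mem _
    (List.mem_cons_of_mem _ List.mem_cons_self)))))))))) (by simp [q31])

theorem e32 : EndIn 12304154032 :=
  toLst k32 (List.mem_append_left _ (List.mem_cons_of_mem _ (List.mem_cons_of_mem _
    (List.mem_cons_of_mem _ (List.mem_cons_of_mem _ List.mem_cons_self))))) (by simp [q32])

theorem e33 : EndIn 12304154053 :=
  toLst k33 (List.mem_append_right _ (List.mem_append_left _ (List.mem_cons_of_mem _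
    (List.mem_cons_of_mem _ (List.mem_cons_of_mem _ (List.mem_cons_of_mem _
    List.mem_cons_self)))))) (by simp [q33])

theorem e34 : EndIn 12304154253 :=
  toLst k34 (List.mem_append_right _ (List.mem_append_right _ (List.mem_append_left _
    (List.mem_cons_of_mem _ (List.mem_cons_of_mem _ (List.mem_cons_of_mem _
    (List.mem_cons_of_mem _ List.mem_cons_self))))))) (by simp [q34])

theorem e35 : EndIn 12304321035 :=
  toLst k35 (List.mem_append_right _ (List.mem_append_right _ (List.mem_append_right _
    (List.mem_append_left _ (List.mem_cons_of_mem _ (List.mem_cons_of_mem _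
    (List.mem_cons_of_mem _ (List.mem_cons_of_mem _ List.mem_cons_self)))))))) (by simp [q35])

theorem e36 : EndIn 12304321042 :=
  toLst k36 (List.mem_append_right _ (List.mem_append_right _ (List.mem_append_right _
    (List.mem_append_right _ (List.mem_append_left _ (List.mem_cons_of_mem _
    (List.mem_cons_of_mem _ (List.mem_cons_of_mem _ (List.mem_cons_of_mem _
    List.mem_cons_self))))))))) (by simp [q36])

theorem e37 : EndIn 12304321043 :=
  toLst k37 (List.mem_append_right _ (List.mem_append_right _ (List.mem_append_right _
    (List.mem_append_right _ (List.mem_append_right _ (List.mem_append_left _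
    (List.mem_cons_of_mem _ (List.mem_cons_of_mem _ (List.mem_cons_of_mem _
    (List.mem_cons_of_mem _ List.mem_cons_self)))))))))) (by simp [q37])

theorem e38 : EndIn 12304321045 :=
  toLst k38 (List.mem_append_right _ (List.mem_append_right _ (List.mem_append_right _
    (List.mem_append_right _ (List.mem_append_right _ (List.mem_append_right _
    (List.mem_append_left _ (List.mem_cons_of_mem _ (List.mem_cons_of_mem _
    (List.mem_cons_of_mem _ (List.mem_cons_of_mem _ List.mem_cons_self))))))))))) (by simp
    [q38])

theorem e39 : EndIn 12304354032 :=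
  toLst k39 (List.mem_append_right _ (List.mem_append_right _ (List.mem_append_right _
    (List.mem_append_right _ (List.mem_append_right _ (List.mem_append_right _
    (List.mem_append_right _ (List.mem_cons_of_mem _ (List.mem_cons_of_mem _
    (List.mem_cons_of_mem _ (List.mem_cons_of_mem _ List.mem_cons_self))))))))))) (by simp
    [q39])

theorem e40 : EndIn 12304354053 :=
  toLst k40 (List.mem_append_left _ (List.mem_cons_of_mem _ (List.mem_cons_of_mem _
    (List.mem_cons_of_mem _ (List.mem_cons_of_mem _ (List.mem_cons_of_mem _
    List.mem_cons_self)))))) (by simp [q40])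

theorem e41 : EndIn 12304354253 :=
  toLst k41 (List.mem_append_right _ (List.mem_append_left _ (List.mem_cons_of_mem _
    (List.mem_cons_of_mem _ (List.mem_cons_of_mem _ (List.mem_cons_of_mem _
    (List.mem_cons_of_mem _ List.mem_cons_self))))))) (by simp [q41])

theorem e42 : EndIn 12304531035 :=
  toLst k42 (List.mem_append_right _ (List.mem_append_right _ (List.mem_append_left _
    (List.mem_cons_of_mem _ (List.mem_cons_of_mem _ (List.mem_cons_of_mem _
    (List.mem_cons_of_mem _ (List.mem_cons_of_mem _ List.mem_cons_self)))))))) (by simp [q42])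

theorem e43 : EndIn 12304531045 :=
  toLst k43 (List.mem_append_right _ (List.mem_append_right _ (List.mem_append_right _
    (List.mem_append_left _ (List.mem_cons_of_mem _ (List.mem_cons_of_mem _
    (List.mem_cons_of_mem _ (List.mem_cons_of_mem _ (List.mem_cons_of_mem _
    List.mem_cons_self))))))))) (by simp [q43])

theorem e44 : EndIn 12304531235 :=
  toLst k44 (List.mem_append_right _ (List.mem_append_right _ (List.mem_append_right _
    (List.mem_append_right _ (List.mem_append_left _ (List.mem_cons_of_mem _
    (List.mem_cons_of_mem _ (List.mem_cons_of_mem _ (List.mem_cons_of_mem _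
    (List.mem_cons_of_mem _ List.mem_cons_self)))))))))) (by simp [q44])

theorem e45 : EndIn 12304531245 :=
  toLst k45 (List.mem_append_right _ (List.mem_append_right _ (List.mem_append_right _
    (List.mem_append_right _ (List.mem_append_right _ (List.mem_append_left _
    (List.mem_cons_of_mem _ (List.mem_cons_of_mem _ (List.mem_cons_of_mem _
    (List.mem_cons_of_mem _ (List.mem_cons_of_mem _ List.mem_cons_self))))))))))) (by simp
    [q45])

theorem e46 : EndIn 12310345043 :=
  toLst k46 (List.mem_append_right _ (List.mem_append_right _ (List.mem_append_right _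
    (List.mem_append_right _ (List.mem_append_right _ (List.mem_append_right _
    (List.mem_append_left _ (List.mem_cons_of_mem _ (List.mem_cons_of_mem _
    (List.mem_cons_of_mem _ (List.mem_cons_of_mem _ (List.mem_cons_of_mem _
    List.mem_cons_self)))))))))))) (by simp [q46])

theorem e47 : EndIn 12310345243 :=
  toLst k47 (List.mem_append_right _ (List.mem_append_right _ (List.mem_append_right _
    (List.mem_append_right _ (List.mem_append_right _ (List.mem_append_right _
    (List.mem_append_right _ (List.mem_cons_of_mem _ (List.mem_cons_of_mem _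
    (List.mem_cons_of_mem _ (List.mem_cons_of_mem _ (List.mem_cons_of_mem _
    List.mem_cons_self)))))))))))) (by simp [q47])

theorem e48 : EndIn 12310435134 :=
  toLst k48 (List.mem_append_left _ (List.mem_cons_of_mem _ (List.mem_cons_of_mem _
    (List.mem_cons_of_mem _ (List.mem_cons_of_mem _ (List.mem_cons_of_mem _
    (List.mem_cons_of_mem _ List.mem_cons_self))))))) (by simp [q48])

theorem e49 : EndIn 12310435234 :=
  toLst k49 (List.mem_append_right _ (List.mem_append_left _ (List.mem_cons_of_mem _
    (List.mem_cons_of_mem _ (List.mem_cons_of_mem _ (List.mem_cons_of_mem _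
    (List.mem_cons_of_mem _ (List.mem_cons_of_mem _ List.mem_cons_self)))))))) (by simp [q49])

theorem e50 : EndIn 12310453254 :=
  toLst k50 (List.mem_append_right _ (List.mem_append_right _ (List.mem_append_left _
    (List.mem_cons_of_mem _ (List.mem_cons_of_mem _ (List.mem_cons_of_mem _
    (List.mem_cons_of_mem _ (List.mem_cons_of_mem _ (List.mem_cons_of_mem _
    List.mem_cons_self))))))))) (by simp [q50])

theorem e51 : EndIn 12314305243 :=
  toLst k51 (List.mem_append_right _ (List.mem_append_right _ (List.mem_append_right _
    (List.mem_append_left _ (List.mem_cons_of_mem _ (List.mem_cons_of_mem _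
    (List.mem_cons_of_mem _ (List.mem_cons_of_mem _ (List.mem_cons_of_mem _
    (List.mem_cons_of_mem _ List.mem_cons_self)))))))))) (by simp [q51])

theorem e52 : EndIn 12314354052 :=
  toLst k52 (List.mem_append_right _ (List.mem_append_right _ (List.mem_append_right _
    (List.mem_append_right _ (List.mem_append_left _ (List.mem_cons_of_mem _
    (List.mem_cons_of_mem _ (List.mem_cons_of_mem _ (List.mem_cons_of_mem _
    (List.mem_cons_of_mem _ (List.mem_cons_of_mem _ List.mem_cons_self))))))))))) (by simp
    [q52])

theorem e53 : EndIn 12314503145 :=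
  toLst k53 (List.mem_append_right _ (List.mem_append_right _ (List.mem_append_right _
    (List.mem_append_right _ (List.mem_append_right _ (List.mem_append_left _
    (List.mem_cons_of_mem _ (List.mem_cons_of_mem _ (List.mem_cons_of_mem _
    (List.mem_cons_of_mem _ (List.mem_cons_of_mem _ (List.mem_cons_of_mem _
    List.mem_cons_self)))))))))))) (by simp [q53])

theorem e54 : EndIn 12314503245 :=
  toLst k54 (List.mem_append_right _ (List.mem_append_right _ (List.mem_append_right _
    (List.mem_append_right _ (List.mem_append_right _ (List.mem_append_right _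
    (List.mem_append_left _ (List.mem_cons_of_mem _ (List.mem_cons_of_mem _
    (List.mem_cons_of_mem _ (List.mem_cons_of_mem _ (List.mem_cons_of_mem _
    (List.mem_cons_of_mem _ List.mem_cons_self))))))))))))) (by simp [q54])

theorem e55 : EndIn 12340521435 :=
  toLst k55 (List.mem_append_right _ (List.mem_append_right _ (List.mem_append_right _
    (List.mem_append_right _ (List.mem_append_right _ (List.mem_append_right _
    (List.mem_append_right _ (List.mem_cons_of_mem _ (List.mem_cons_of_mem _
    (List.mem_cons_of_mem _ (List.mem_cons_of_mem _ (List.mem_cons_of_mem _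
    (List.mem_cons_of_mem _ List.mem_cons_self))))))))))))) (by simp [q55])

theorem e56 : EndIn 12345103254 :=
  toLst k56 (List.mem_append_left _ (List.mem_cons_of_mem _ (List.mem_cons_of_mem _
    (List.mem_cons_of_mem _ (List.mem_cons_of_mem _ (List.mem_cons_of_mem _
    (List.mem_cons_of_mem _ (List.mem_cons_of_mem _ List.mem_cons_self)))))))) (by simp [q56])

theorem all57 : ∀ c ∈ H623.L57, EndIn c := by
  unfold H623.L57
  exact
    List.forall_mem_cons.2 ⟨e0, List.forall_mem_cons.2 ⟨e1, List.forall_mem_cons.2 ⟨e2,
    List.forall_mem_cons.2 ⟨e3, List.forall_mem_cons.2 ⟨e4, List.forall_mem_cons.2 ⟨e5,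
    List.forall_mem_cons.2 ⟨e6, List.forall_mem_cons.2 ⟨e7, List.forall_mem_cons.2 ⟨e8,
    List.forall_mem_cons.2 ⟨e9, List.forall_mem_cons.2 ⟨e10, List.forall_mem_cons.2 ⟨e11,
    List.forall_mem_cons.2 ⟨e12, List.forall_mem_cons.2 ⟨e13, List.forall_mem_cons.2 ⟨e14,
    List.forall_mem_cons.2 ⟨e15, List.forall_mem_cons.2 ⟨e16, List.forall_mem_cons.2 ⟨e17,
    List.forall_mem_cons.2 ⟨e18, List.forall_mem_cons.2 ⟨e19, List.forall_mem_cons.2 ⟨e20,
    List.forall_mem_cons.2 ⟨e21, List.forall_mem_cons.2 ⟨e22, List.forall_mem_cons.2 ⟨e23,
    List.forall_mem_cons.2 ⟨e24, List.forall_mem_cons.2 ⟨e25, List.forall_mem_cons.2 ⟨e26,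
    List.forall_mem_cons.2 ⟨e27, List.forall_mem_cons.2 ⟨e28, List.forall_mem_cons.2 ⟨e29,
    List.forall_mem_cons.2 ⟨e30, List.forall_mem_cons.2 ⟨e31, List.forall_mem_cons.2 ⟨e32,
    List.forall_mem_cons.2 ⟨e33, List.forall_mem_cons.2 ⟨e34, List.forall_mem_cons.2 ⟨e35,
    List.forall_mem_cons.2 ⟨e36, List.forall_mem_cons.2 ⟨e37, List.forall_mem_cons.2 ⟨e38,
    List.forall_mem_cons.2 ⟨e39, List.forall_mem_cons.2 ⟨e40, List.forall_mem_cons.2 ⟨e41,
    List.forall_mem_cons.2 ⟨e42, List.forall_mem_cons.2 ⟨e43, List.forall_mem_cons.2 ⟨e44,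
    List.forall_mem_cons.2 ⟨e45, List.forall_mem_cons.2 ⟨e46, List.forall_mem_cons.2 ⟨e47,
    List.forall_mem_cons.2 ⟨e48, List.forall_mem_cons.2 ⟨e49, List.forall_mem_cons.2 ⟨e50,
    List.forall_mem_cons.2 ⟨e51, List.forall_mem_cons.2 ⟨e52, List.forall_mem_cons.2 ⟨e53,
    List.forall_mem_cons.2 ⟨e54, List.forall_mem_cons.2 ⟨e55, List.forall_mem_cons.2 ⟨e56, fun _
    h => absurd h List.not_mem_nil⟩⟩⟩⟩⟩⟩⟩⟩⟩⟩⟩⟩⟩⟩⟩⟩⟩⟩⟩⟩⟩⟩⟩⟩⟩⟩⟩⟩⟩⟩⟩⟩⟩⟩⟩⟩⟩⟩⟩⟩⟩⟩⟩⟩⟩⟩⟩⟩⟩⟩⟩⟩⟩⟩⟩⟩⟩

/-- **The search over the 57 columns.** -/
theorem hS800 : ∀ c ∈ H623.L57, ∀ s s', StepC All Et s s' → IsCol s.1 c → ¬ NsC s.1 s'.1 →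
    ∃ q ∈ lst c, IsCol s'.1 q := all57

end Vale.Agent.P032.H800.Br
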